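import Vale.Agent.P181.H382.Defs

set_option autoImplicit false

/-!
# P181, LS: the line LL without logarithms, `D_2 λ_2 ≥ C b ^ 3`: the literals

The side with `a` letters is bounded by the number of MULTISETS of `a` pairs (degree in row two,
degree in the tail), about `(e ^ 4 λ_2 D_2 / a ^ 3) ^ a`, instead of `(a + b).choose a` times
`(a + t - 1).choose t`. The lower bound of LL (`LowM`) is used as it stands.
-/

open MvPolynomial

namespace Vale.Agent.P181.H382.H112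

open Vale.Agent.P181.T4 (HW)
open Vale.Agent.P181.H280 (plethMult)
open Vale.Agent.P181.TL (KK dn2)
open Vale.Agent.P181.PL (dn)

/-- The number of multisets of `a` pairs of natural numbers with the sums `S` and `T`
(`m p` is the multiplicity of the pair `p`). -/
def NP (a S T : ℕ) : ℕ :=
  (Finset.univ.filter fun m : Fin (S + 1) × Fin (T + 1) → Fin (a + 1) =>
    ∑ p, (m p : ℕ) = a ∧ ∑ p, (m p : ℕ) * (p.1 : ℕ) = S ∧ ∑ p, (m p : ℕ) * (p.2 : ℕ) = T).card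

/-- **(S1)** the upper bound: a translation invariant symmetric polynomial is determined by its
components of sorted pairs (degree in row two, content); the balanced content has the largest
multiplicity (`TL.H850.finrank_TI_le` and `TL.H639.balB` in one). -/
def UpC : Prop := ∀ (a b k : ℕ) (lam : Fin (k + 3) → ℕ) (f : Fin a → ℕ), 0 < a →
  (∀ i j, f i ≤ f j + 1) → ∑ i, f i = dn2 lam →
  plethMult a b (k + 3) lam ≤ NP a (lam 1) (dn2 lam) *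
    Module.finrank ℂ (KK (k + 1) (Fin a) f fun i => lam i.succ.succ)

/-- **(S2)** the number of multisets (`x = S / (S + a)`, `y = T / (T + a)`,
`z = a ^ 3 / ((S + a) (T + a)) ≤ 1 / 2`: `N z ^ a x ^ S y ^ T ≤ ∏ 1 / (1 - z x ^ s y ^ c) ≤
exp (2 z / ((1 - x) (1 - y))) = exp (2 a)`, `e ^ 4 ≤ 55`). -/
def CntC : Prop := ∀ a S T : ℕ, 0 < a → 2 * a ^ 3 ≤ (S + a) * (T + a) →
  NP a S T * a ^ (3 * a) ≤ (55 * ((S + a) * (T + a))) ^ a

/-- **(S3)** the core: as `CoreN` (same proof), with S1, S2 for the side with `a` letters. -/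
def CoreS : Prop := ∃ a₀ : ℕ, ∀ (a b k e n m X h R K : ℕ) (lam : Fin (k + 3) → ℕ),
  lam 1 ≤ lam 0 → ∑ i, lam i = a * b → a₀ + e ≤ a → 12 < a → 1 ≤ m → 1 ≤ X → 1 ≤ h → a ≤ n →
  n + 2 * h + 9 * K = b → e * b ≤ K * (a - 12) →
  (m * (X + 1) + X) * n ≤ dn2 lam → dn2 lam / n + m * (X + 1) + 1 ≤ dn2 lam / a →
  lam 2 ≤ h * R → dn2 lam / a + n / m + 2 + R ≤ e →
  n * (n / m) + 2 * e * h + lam 2 + K * (5 * a - 6) + 9 * a ≤ lam 1 →
  2 * a ^ 3 ≤ (lam 1 + a) * (dn2 lam + a) →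
  (55 * ((lam 1 + a) * (dn2 lam + a))) ^ a * (a * b + 1) ^ 3 ≤ a ^ (3 * a) * X ^ n →
  plethMult a b (k + 3) lam ≤ plethMult b a (k + 3) lam

/-- **(S4)** the numbers: `e = δ λ_2 / (2000 b)`, `m = C b ^ 2 / λ_2`, `X = t / (C n m)`,
`R = e / 4`, `h = λ_3 / R + 1`, `K = e b / (a - 12) + 1`, `n = b - 9 K - 2 h`. Only
`t λ_2 ≥ C b ^ 3` is used in the growth: `X ≥ t λ_2 / (C b ^ 3)`. -/
def TwoLongS : Prop := ∀ δ : ℝ, 0 < δ → ∃ (C : ℝ) (c : ℕ), 1 ≤ C ∧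
  ∀ (a b k : ℕ) (lam : Fin (k + 3) → ℕ) (Λ : ℝ), Antitone lam → ∑ i, lam i = a * b →
  1 ≤ Λ → C * Λ ^ c ≤ a → (1 + δ) * a ≤ b → (b : ℝ) ≤ Λ * a → (a : ℝ) ^ 2 ≤ Λ * lam 1 →
  C * (b : ℝ) ^ 3 ≤ (lam 1 : ℝ) * dn2 lam → C * Λ ^ c * dn2 lam ≤ (a : ℝ) ^ 2 →
  plethMult a b (k + 3) lam ≤ plethMult b a (k + 3) lam

/-- **(S5)** the final form (`w D_2 ≥ C b ^ 3`), from S4, `NearAll` (or `RH.FinRH`), `PolyS`. -/
def RhoAll : Prop := ∀ δ : ℝ, 0 < δ → ∃ C : ℝ, 0 < C ∧ ∀ a b : ℕ, (1 + δ) * a ≤ b →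
  ∀ (n : ℕ) (lam : Fin n → ℕ), C * (b : ℝ) ^ 3 ≤ (dn lam 1 : ℝ) * dn lam 2 →
  plethMult a b n lam ≤ plethMult b a n lam

end Vale.Agent.P181.H382.H112
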