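import Vale.Agent.P181.H382.H112.Defs

set_option autoImplicit false

/-!
# P181, LSU: line LS uniform in `b - a`: one clause for every pair `a < b`

`C b log (2 b / (b - a)) ≤ (b - a) log (w D_2 / b ^ 3)`. With `UniAll` it contains `NearU`
(`C b log (2 + log a) ≤ (b - a) log (D_2 / a)`) and, for `b ≥ (1 + δ) a`, it is `w D_2 ≥ C_δ b ^ 3`.
-/

namespace Vale.Agent.P181.H382.H112

open Vale.Agent.P181.H280 (plethMult)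
open Vale.Agent.P181.TL (KK dn2)
open Vale.Agent.P181.PL (dn)

/-- **(U4)** the numbers, from `CoreS` only: `g = b - a`, `e = g λ_2 / (2000 b ^ 2)`, `R = e / 4`,
`h = λ_3 / R + 1`, `K = e b / (a - 12) + 1`, `m = C b ^ 3 / (g λ_2)`, `n = b - 9 K - 2 h`
(`n - a ≥ g / 2`, `n ≥ b / 2`), `X = g t / (8 a b m)`, so `X ≥ (g / b) ^ 2 (t λ_2 / b ^ 3) / C`. -/
def RhoP : Prop := ∃ (C : ℝ) (c : ℕ), 1 ≤ C ∧
  ∀ (a b k : ℕ) (lam : Fin (k + 3) → ℕ) (Λ : ℝ), Antitone lam → ∑ i, lam i = a * b →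
  1 ≤ Λ → C * Λ ^ c ≤ a → a < b → (b : ℝ) ≤ Λ * a → (b : ℝ) ≤ Λ * (b - a) →
  (a : ℝ) ^ 2 ≤ Λ * lam 1 → C * Λ ^ c * dn2 lam ≤ (a : ℝ) ^ 2 →
  C * b * Real.log (2 * b / (b - a)) ≤
    ((b : ℝ) - a) * Real.log ((lam 1 : ℝ) * dn2 lam / (b : ℝ) ^ 3) →
  plethMult a b (k + 3) lam ≤ plethMult b a (k + 3) lam

/-- **(U5)** the final form, from U4, `RV.NearV` (`D_2 ≥ a ^ 2 / P`), `UniAll` (`P w ≤ b ^ 2`),
`PolyS`. With `x = b / (b - a)`: `w D_2 / b ^ 3 ≤ a`, so `C x log (2 x) ≤ log a`, hence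
`x ≤ log a` and `C' x log (2 + log a) ≤ log a`. -/
def RhoU : Prop := ∃ C : ℝ, 0 < C ∧ ∀ a b : ℕ, a < b → ∀ (n : ℕ) (lam : Fin n → ℕ),
  C * b * Real.log (2 * b / (b - a)) ≤
    ((b : ℝ) - a) * Real.log ((dn lam 1 : ℝ) * dn lam 2 / (b : ℝ) ^ 3) →
  plethMult a b n lam ≤ plethMult b a n lam

end Vale.Agent.P181.H382.H112
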