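import Vale.Agent.P181.H382.H112.Defs
import Vale.Agent.P181.TL.H850.UpB
import Vale.Agent.P181.TL.H639.BalB

set_option autoImplicit false

/-!
# P181, LS, (S1): the upper bound by sorted pairs (degree in row two, content)
-/

open MvPolynomial

namespace Vale.Agent.P181.H382.H112

open Vale.Agent.P181.T4 (HW rowOp rowOp_apply)
open Vale.Agent.P181.H280 (plethMult)
open Vale.Agent.P181.SZ
open Vale.Agent.P181.SZ.R1b (pm pm_apply pm_apply' coeff_pm exists_perm_of_map_eq cmp coeff_cmp
  cdeg)
open Vale.Agent.P181.TL (KK dn2)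
open Vale.Agent.P181.TL.H850 (ex0 ex0_res cz coeff_cz cz_mem)
open Vale.Agent.P181.TL.H639 (cmp_mem stable)

/-- A family with prescribed values. -/
lemma exists_rep {P : Type} (a : ℕ) (x : Sym P a) :
    ∃ d : Fin a → P, (Finset.univ : Finset (Fin a)).val.map d = x.1 := by
  obtain ⟨l, hl⟩ : ∃ l : List P, (l : Multiset P) = x.1 := Quot.exists_rep _
  have hlen : l.length = a := by
    have h1 := congrArg Multiset.card hl
    rw [Multiset.coe_card, x.2] at h1
    exact h1
  subst hlen
  refine ⟨l.get, ?_⟩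
  rw [Fin.univ_val_map, List.ofFn_get, hl]

/-- The multisets of pairs with the sums `S`, `T`. -/
def XS (a S T : ℕ) : Finset (Sym (Fin (S + 1) × Fin (T + 1)) a) :=
  Finset.univ.filter fun x => (x.1.map fun p => (p.1 : ℕ)).sum = S ∧
    (x.1.map fun p => (p.2 : ℕ)).sum = T

lemma sum_count {P : Type} [Fintype P] [DecidableEq P] (s : Multiset P) (g : P → ℕ) :
    ∑ p, s.count p * g p = (s.map g).sum := by
  rw [Finset.sum_multiset_map_count]
  symm
  refine Finset.sum_subset_zero_on_sdiff (Finset.subset_univ _) (fun p hp => ?_) fun p _ => ?_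
  · rw [Finset.mem_sdiff, Multiset.mem_toFinset] at hp
    rw [Multiset.count_eq_zero_of_notMem hp.2, zero_mul]
  · rw [smul_eq_mul]

lemma card_XS (a S T : ℕ) : (XS a S T).card ≤ NP a S T := by
  classical
  unfold NP
  refine Finset.card_le_card_of_injOn
    (fun x p => ⟨x.1.count p, Nat.lt_succ_of_le (by
      have := Multiset.count_le_card p x.1
      rwa [x.2] at this)⟩) ?_ ?_
  · intro x hx
    have hx' := (Finset.mem_filter.1 (Finset.mem_coe.1 hx)).2
    refine Finset.mem_coe.2 (Finset.mem_filter.2 ⟨Finset.mem_univ _, ?_, ?_, ?_⟩)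
    · exact (Multiset.sum_count_eq_card (s := Finset.univ) fun a _ => Finset.mem_univ a).trans x.2
    · exact (sum_count x.1 fun p => (p.1 : ℕ)).trans hx'.1
    · exact (sum_count x.1 fun p => (p.2 : ℕ)).trans hx'.2
  · intro x _ y _ h
    apply Subtype.ext
    apply Multiset.ext.2
    intro p
    exact congrArg Fin.val (congrFun h p)

theorem finrank_TI_le (a b k : ℕ) (mu : Fin (k + 1) → ℕ) (f : Fin a → ℕ)
    (hf : ∀ i j, f i ≤ f j + 1) (hsum : ∑ i, f i = ∑ i : Fin k, mu i.succ) :
    Module.finrank ℂ (TI a b (k + 1) mu) ≤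
      NP a (mu 0) (∑ i : Fin k, mu i.succ) *
        Module.finrank ℂ (KK k (Fin a) f fun i => mu i.succ) := by
  classical
  set S := mu 0 with hS
  set T := ∑ i : Fin k, mu i.succ with hT
  choose D hD using exists_rep (P := Fin (S + 1) × Fin (T + 1)) a
  let Φ : TI a b (k + 1) mu →ₗ[ℂ]
      ((x : XS a S T) → KK k (Fin a) (fun j => ((D x.1 j).2 : ℕ)) fun i => mu i.succ) :=
    LinearMap.pi fun x => ((R1b.cmp (m := k) (fun j => ((D x.1 j).2 : ℕ))).comp
      ((cz k a fun j => ((D x.1 j).1 : ℕ)).comp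
        (TI a b (k + 1) mu).subtype)).codRestrict
          (KK k (Fin a) (fun j => ((D x.1 j).2 : ℕ)) fun i => mu i.succ)
          fun f => cmp_mem _ (cz_mem f.2.1 _)
  have hΦ : ∀ (f : TI a b (k + 1) mu) (x : XS a S T),
      ((Φ f x : KK k (Fin a) (fun j => ((D x.1 j).2 : ℕ)) fun i => mu i.succ) :
        MvPolynomial (Fin k × Fin a) ℂ) =
        R1b.cmp (fun j => ((D x.1 j).2 : ℕ)) (cz k a (fun j => ((D x.1 j).1 : ℕ)) f.1) :=
    fun f x => rfl
  have hinj : Function.Injective Φ := by
    rw [← LinearMap.ker_eq_bot, LinearMap.ker_eq_bot']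
    intro g hg
    apply Subtype.ext
    apply MvPolynomial.ext
    intro v
    rw [ZeroMemClass.coe_zero, coeff_zero]
    by_contra hv
    obtain ⟨h1, hs, -, -⟩ := g.2
    have hw : ∀ i, ∑ j, v (i, j) = mu i := h1.1 v hv
    have hT' : ∑ j, ∑ i : Fin k, v (i.succ, j) = T := by
      rw [Finset.sum_comm]
      exact Finset.sum_congr rfl fun i _ => hw i.succ
    have hb1 : ∀ j, v (0, j) < S + 1 := by
      intro j
      have h3 : v (0, j) ≤ ∑ j, v (0, j) :=
        Finset.single_le_sum (f := fun j => v (0, j)) (fun i _ => Nat.zero_le _)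
          (Finset.mem_univ j)
      rw [hw 0] at h3
      omega
    have hb2 : ∀ j, ∑ i : Fin k, v (i.succ, j) < T + 1 := by
      intro j
      have h3 : ∑ i : Fin k, v (i.succ, j) ≤ ∑ j, ∑ i : Fin k, v (i.succ, j) :=
        Finset.single_le_sum (f := fun j => ∑ i : Fin k, v (i.succ, j))
          (fun i _ => Nat.zero_le _) (Finset.mem_univ j)
      rw [hT'] at h3
      omega
    let d' : Fin a → Fin (S + 1) × Fin (T + 1) := fun j =>
      (⟨v (0, j), hb1 j⟩, ⟨∑ i : Fin k, v (i.succ, j), hb2 j⟩)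
    let x : Sym (Fin (S + 1) × Fin (T + 1)) a := ⟨(Finset.univ : Finset (Fin a)).val.map d', by
      rw [Multiset.card_map]
      exact Finset.card_fin a⟩
    have hx : x ∈ XS a S T := by
      refine Finset.mem_filter.2 ⟨Finset.mem_univ _, ?_, ?_⟩
      · change (((Finset.univ : Finset (Fin a)).val.map d').map fun p => (p.1 : ℕ)).sum = S
        rw [Multiset.map_map]
        exact hw 0
      · change (((Finset.univ : Finset (Fin a)).val.map d').map fun p => (p.2 : ℕ)).sum = T
        rw [Multiset.map_map]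
        exact hT'
    obtain ⟨τ, hτ⟩ := exists_perm_of_map_eq (D x) d' (hD x)
    have h4 : ∀ j, pm τ v (0, j) = ((D x j).1 : ℕ) := by
      intro j
      rw [pm_apply']
      have h5 := congrFun hτ (τ.symm j)
      rw [Function.comp_apply, τ.apply_symm_apply] at h5
      rw [← h5]
    have h4' : ∀ j, ∑ i : Fin k, pm τ v (i.succ, j) = ((D x j).2 : ℕ) := by
      intro j
      have h5 := congrFun hτ (τ.symm j)
      rw [Function.comp_apply, τ.apply_symm_apply] at h5
      rw [← h5]
      exact Finset.sum_congr rfl fun i _ => pm_apply' τ v i.succ j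
    have h6 : coeff (pm τ v) g.1 = coeff v g.1 := by
      have h7 := coeff_pm τ g.1 v
      rwa [hs τ] at h7
    have h8 : R1b.cmp (fun j => ((D x j).2 : ℕ)) (cz k a (fun j => ((D x j).1 : ℕ)) g.1) = 0 := by
      rw [← hΦ g ⟨x, hx⟩, hg]
      rfl
    have h10 : cdeg (res (pm τ v)) = fun j => ((D x j).2 : ℕ) := funext fun j => h4' j
    have h9 := congrArg (coeff (res (pm τ v))) h8
    rw [coeff_cmp, if_pos h10, coeff_cz, ex0_res h4, h6, coeff_zero] at h9
    exact hv h9
  have h1 := LinearMap.finrank_le_finrank_of_injective hinj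
  rw [Module.finrank_pi_fintype] at h1
  refine h1.trans ?_
  have h2 : ∀ x : XS a S T,
      Module.finrank ℂ (KK k (Fin a) (fun j => ((D x.1 j).2 : ℕ)) fun i => mu i.succ) ≤
        Module.finrank ℂ (KK k (Fin a) f fun i => mu i.succ) := by
    intro x
    refine (stable k a fun i => mu i.succ).le_balanced hf _ ?_
    have hx := (Finset.mem_filter.1 x.2).2.2
    rw [← hD x.1, Multiset.map_map] at hx
    rw [hsum]
    exact hx
  refine (Finset.sum_le_sum fun x _ => h2 x).trans ?_
  rw [Finset.sum_const, smul_eq_mul, Finset.card_univ, Fintype.card_coe]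
  exact Nat.mul_le_mul_right _ (card_XS a S T)

/-- **(S1)** -/
theorem upC : UpC := by
  intro a b k lam f ha hf hsum
  exact (R1a a b (k + 2) lam).trans (finrank_TI_le a b (k + 1) (tl lam) f hf hsum)

end Vale.Agent.P181.H382.H112
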